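import Vale.Agent.P365.T2.H629.ErrSmall
import Vale.Agent.P365.T2.H912.XThm
import Vale.Agent.P365.T2.UpsBd844

/-!
# P365 T2, X-FLOWASM, boundary values (helper227)

* `errPart` : 912's `ErrPart` for 629's `ErrX`;
* `UX` : the averaged truncated entropy per site, `abs_UX_le` : `|UX| ≤ (T + 2) En`,
  `UX_ge`, `UX_le` : the fields `U0`, `U1` of 213's `Flow` (`K = 16 C1`, `CU ≥ 2`);
* `PosX_nonneg` : the field `Pos0`.
-/

set_option linter.all false

namespace P365T2.H227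

open P365L P365O P365T1 P365L.TL Matrix Complex MeasureTheory Filter Topology Set
open Vale.Agent.P365.J376 P365H219 P365T2.H213 P365T2.H320U P365T2.X629
open scoped ComplexConjugate ENNReal

/-! ### averages -/

section avg

variable {ι : Type*} [Fintype ι] [DecidableEq ι] {Λ : Type*} [Fintype Λ] {p : Λ → ℝ}
  {ν : Λ → Measure ℝ} {E : ℝ} {e : (ι → Λ) → ι → ℝ}

/-- bound of an average by the average of a bound; no measurability of `G` is needed -/
theorem abs_AvG_le (hp : ∀ k, 0 ≤ p k) {G H : (ι → Λ) → (ι → ℂ) → ℝ}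
    (hH : ∀ l, Integrable (fun v => H l (WV E (e l) v)) (Measure.pi fun x => ν (l x)))
    (hle : ∀ l v, |G l (WV E (e l) v)| ≤ H l (WV E (e l) v)) :
    |AvG p ν E e G| ≤ AvG p ν E e H := by
  unfold AvG
  refine (Finset.abs_sum_le_sum_abs _ _).trans (Finset.sum_le_sum fun l _ => ?_)
  rw [abs_mul, abs_of_nonneg (Finset.prod_nonneg fun x _ => hp _)]
  refine mul_le_mul_of_nonneg_left ?_ (Finset.prod_nonneg fun x _ => hp _)
  unfold Ex
  have h := norm_integral_le_of_norm_le (f := fun v => G l (WV E (e l) v)) (hH l)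
    (Eventually.of_forall fun v => by rw [Real.norm_eq_abs]; exact hle l v)
  rwa [Real.norm_eq_abs] at h

theorem AvG_const_mul' (c : ℝ) (G : (ι → Λ) → (ι → ℂ) → ℝ) :
    AvG p ν E e (fun l V => c * G l V) = c * AvG p ν E e G := by
  unfold AvG Ex
  rw [Finset.mul_sum]
  refine Finset.sum_congr rfl fun l _ => ?_
  rw [integral_const_mul]
  ring

end avg

/-! ### the error part -/

/-- **912's `ErrPart`** for 629's error -/
theorem errPart {lam E C1 : ℝ} (hC1 : 0 < C1) :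
    P365T2.H912.ErrPart lam E C1 (fun _ _ W t => ErrX W E C1 t) := by
  intro ε hε
  obtain ⟨η, hη, h⟩ := err_small (C1 := C1) hC1 hε
  exact ⟨η, hη, fun N _ W _ hok τ hτ => h W η hη le_rfl hok τ ⟨hτ.1.le, hτ.2.le⟩⟩

/-! ### the entropy -/

section stw

variable {N : ℕ} [NeZero N] {W : StW N} {lam E C1 η : ℝ}

theorem tt_PhiR_le (J : ℕ) (x y : Tor N) : P365T2.H844.tt (PhiR N J) x y ≤ 4 ^ J :=
  ttR_le x y

theorem tt_PhiR_or {J : ℕ} (hJ : 1 ≤ J) (x y : Tor N) :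
    P365T2.H844.tt (PhiR N J) x y = 0 ∨ 1 ≤ P365T2.H844.tt (PhiR N J) x y :=
  ttR_or hJ x y

theorem sum_pr_Vr_PhiR {V : Tor N → ℂ} (hV : ∀ x, (V x).im < 0) (J : ℕ) :
    ∑ v, P365T2.H844.pr (P365T2.H844.TT (AT N) V) v *
      P365T2.H844.Vr (PhiR N J) (P365T2.H844.TT (AT N) V) v = ∑ j, En (AT N) V (fR N J j) :=
  P365T2.H844.sum_pr_Vr_fam (AT_symm N) hV (fR N J)

/-- the averaged truncated entropy, per site, for the truncated field with `J` scales -/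
noncomputable def UXJ (W : StW N) (E : ℝ) (J : ℕ) (T τ : ℝ) : ℝ :=
  (W.Av E τ fun _ V => P365T2.H844.Ups (PhiR N J) (AT N) V (Real.exp (-T)) J) / (N : ℝ) ^ 2

/-- the averaged truncated entropy, per site -/
noncomputable def UX (W : StW N) (E C1 T τ : ℝ) : ℝ := UXJ W E (nJ C1 W.S) T τ

/-- `|Av Ups| ≤ (T + 2) Phi(fR)` -/
theorem abs_Av_Ups_le (h : W.Ok lam E C1 η) {T : ℝ} (hT : 0 ≤ T) (J : ℕ) (τ : ℝ) :
    |W.Av E τ fun _ V => P365T2.H844.Ups (PhiR N J) (AT N) V (Real.exp (-T)) J| ≤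
      (T + 2) * W.Phi E (fR N J) τ := by
  haveI := h.prob
  have he := Ok_eT_pos h τ
  have h1 : ∀ l : Tor N → W.Λ, Integrable
      (fun v => (T + 2) * ∑ j, En (AT N) (WV E (eT W.u W.w τ l) v) (fR N J j))
      (Measure.pi fun x => W.ν (l x)) := fun l =>
    (integrable_sum_En (AT_symm N) _ E (he l) (fR N J)).const_mul _
  have h2 := abs_AvG_le (p := W.p) (ν := W.ν) (E := E) (e := eT W.u W.w τ)
    (G := fun _ V => P365T2.H844.Ups (PhiR N J) (AT N) V (Real.exp (-T)) J)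
    (H := fun _ V => (T + 2) * ∑ j, En (AT N) V (fR N J j)) h.p_nonneg h1 fun l v => by
      have hV : ∀ x, ((WV E (eT W.u W.w τ l) v) x).im < 0 :=
        Vale.Agent.P365.J376.WV_neg (he l) v
      have h3 := P365T2.H844.abs_Ups_le (Φ := PhiR N J) (AT_symm N) hV hT (tt_PhiR_le J)
      rwa [sum_pr_Vr_PhiR hV] at h3
  rw [AvG_const_mul'] at h2
  exact h2

theorem Phi_fR_le_uF (h : W.Ok lam E C1 η) (J : ℕ) (τ : ℝ) :
    W.Phi E (fR N J) τ ≤ W.Phi E (uF N J) τ := by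
  haveI := h.prob
  unfold StW.Phi uF
  rw [PhiG_elim (AT_symm N) (Ok_eT_pos h τ)]
  have := PhiG_nonneg (A := AT N) (E := E) (ν := W.ν) (f := phi N) h.p_nonneg
    fun l x => (Ok_eT_pos h τ l x).le
  linarith

theorem Np : 0 < (N : ℝ) ^ 2 := by
  have : (0 : ℝ) < N := Nat.cast_pos.2 (Nat.pos_of_ne_zero (NeZero.ne N))
  positivity

/-- **`|U| ≤ (T + 2) En`** at every time -/
theorem abs_UX_le (h : W.Ok lam E C1 η) {T : ℝ} (hT : 0 ≤ T) (D τ : ℝ) :
    |UX W E D T τ| ≤ (T + 2) * EnX W E D τ := by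
  unfold UX UXJ EnX
  rw [abs_div, abs_of_pos (Np (N := N)), ← mul_div_assoc]
  refine (div_le_div_iff_of_pos_right Np).2 ((abs_Av_Ups_le h hT _ τ).trans ?_)
  exact mul_le_mul_of_nonneg_left (Phi_fR_le_uF h _ τ) (by linarith)

/-- the bound with the constant of `en_le` -/
theorem abs_UX_le' (h : W.Ok lam E C1 η) {T : ℝ} (hT : 0 ≤ T) (D : ℝ) {τ : ℝ}
    (hτ : τ ∈ Set.Icc 0 W.S) : |UX W E D T τ| ≤ (T + 2) * (16 * C1) :=
  (abs_UX_le h hT D τ).trans
    (mul_le_mul_of_nonneg_left (EnX_le h hτ D) (by linarith))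

/-- **field `U0`** -/
theorem UX_ge (h : W.Ok lam E C1 η) (hC1 : 0 ≤ C1) {T CU : ℝ} (hT : 0 ≤ T) (hCU : 2 ≤ CU) (D : ℝ)
    {τ : ℝ} (hτ : τ ∈ Set.Icc 0 W.S) : -((T + CU) * (16 * C1)) ≤ UX W E D T τ := by
  have h1 := (abs_le.1 (abs_UX_le' h hT D hτ)).1
  have h2 : (T + 2) * (16 * C1) ≤ (T + CU) * (16 * C1) :=
    mul_le_mul_of_nonneg_right (by linarith) (by positivity)
  linarith

/-- **field `U1`** -/
theorem UX_le (h : W.Ok lam E C1 η) (hC1 : 0 ≤ C1) {T CU : ℝ} (hT : 0 ≤ T) (hCU : 2 ≤ CU) (D : ℝ)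
    {τ : ℝ} (hτ : τ ∈ Set.Icc 0 W.S) : UX W E D T τ ≤ (T + CU) * (16 * C1) := by
  have h1 := (abs_le.1 (abs_UX_le' h hT D hτ)).2
  have h2 : (T + 2) * (16 * C1) ≤ (T + CU) * (16 * C1) :=
    mul_le_mul_of_nonneg_right (by linarith) (by positivity)
  linarith

/-- **field `Pos0`** -/
theorem PosX_nonneg (h : W.Ok lam E C1 η) (D T τ : ℝ) : 0 ≤ PosX W E D T τ := by
  unfold PosX StW.Av AvG
  refine div_nonneg (Finset.sum_nonneg fun l _ => mul_nonneg
    (Finset.prod_nonneg fun x _ => h.p_nonneg _) (Ex_nonneg _ _ _ fun v => ?_)) Np.le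
  exact P365T2.H844.Pos_nonneg (AT_symm N)
    (Vale.Agent.P365.J376.WV_neg (Ok_eT_pos h τ l) v) (Real.exp_pos _) _

end stw

end P365T2.H227
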